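import Vale.Agent.P143.H726.Final

namespace Vale.Agent.Results.P143.DeterminantalFactors

open Vale.Agent.P143 Vale.Agent.P143.Det MeasureTheory SimpleGraph unitInterval

universe u v

/-- (1), (2): the question as posed, for all Cayley graphs and all unimodular random graphs.
(3) Every positive contraction has exactly one determinantal measure. (4) For every group and
every countable set on which it acts with finite stabilizers, every invariant determinantal
measure is a factor of IID; (5) in particular on the edges of every Cayley graph. (6) One
universal Borel rule, commuting with all permutations, for all determinantal measures. (7) One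
graph rule for all determinantal measures on the edges of all locally finite graphs. (8) The
free uniform spanning forests of all networks. -/
theorem result :
    (∀ (Γ : Type u) [Group Γ] (S : Set Γ), S.Finite → Subgroup.closure S = ⊤ →
      ∃ μ : Measure ((mulCayley S).edgeSet → Bool),
        IsFUSF (mulCayley S) μ ∧ IsGroupFactor S μ) ∧
    (∀ ρ : Measure (SimpleGraph ℕ × ℕ), IsUnimodular ρ →
      ∃ Φ : SimpleGraph ℕ → (ℕ → I) → Sym2 ℕ → Bool, IsGraphRule Φ ∧
        ∀ᵐ p ∂ρ, IsFUSF p.1 (ruleLaw Φ p.1)) ∧
    Existence.{v} ∧ Groups.{u, v} ∧ CayleyEdges.{u} ∧ Universal ∧ Graphs ∧ Net.Networks.{u} :=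
  ⟨fun _ _ S hS hcl => cayley_part S hS hcl, fun ρ hρ => unimodular_part ρ hρ,
    existence, groups, cayleyEdges, universal, graphs, Net.networks⟩

end Vale.Agent.Results.P143.DeterminantalFactors
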